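import Vale.Agent.P072.MathlibUsed

namespace Vale.Agent.P072

/-- A finite reaction network with `d` species: a finite set of complexes and a
finite set of reactions `y → y'` (pairs of distinct complexes). -/
structure Network (d : ℕ) where
  /-- the complexes -/
  complexes : Finset (Fin d → ℕ)
  /-- the reactions, as pairs (source, target) -/
  reactions : Finset ((Fin d → ℕ) × (Fin d → ℕ))
  source_mem : ∀ r ∈ reactions, r.1 ∈ complexes
  target_mem : ∀ r ∈ reactions, r.2 ∈ complexes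
  source_ne_target : ∀ r ∈ reactions, r.1 ≠ r.2

variable {d : ℕ}

/-- For every reaction `y → y'` there is a directed path from `y'` back to `y`. -/
def Network.WeaklyReversible (G : Network d) : Prop :=
  ∀ r ∈ G.reactions, Relation.ReflTransGen (fun y z => (y, z) ∈ G.reactions) r.2 r.1

/-- The mass-action vector field with rate constants `k`. -/
noncomputable def Network.field (G : Network d)
    (k : (Fin d → ℕ) × (Fin d → ℕ) → ℝ) (x : Fin d → ℝ) : Fin d → ℝ :=
  ∑ r ∈ G.reactions, (k r * ∏ j, x j ^ r.1 j) • (fun i => (r.2 i : ℝ) - (r.1 i : ℝ))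

/-- The stoichiometric subspace. -/
def Network.stoich (G : Network d) : Submodule ℝ (Fin d → ℝ) :=
  Submodule.span ℝ ((fun r : (Fin d → ℕ) × (Fin d → ℕ) =>
    (fun i => (r.2 i : ℝ) - (r.1 i : ℝ) : Fin d → ℝ)) '' (G.reactions : Set _))

/-- The positive stoichiometric class of `c`. -/
def Network.posClass (G : Network d) (c : Fin d → ℝ) : Set (Fin d → ℝ) :=
  {x | x - c ∈ G.stoich ∧ ∀ i, 0 < x i}

/-- `x` solves `x' = f(x)` on `[0, b)`. -/
def IsSolutionOn (f : (Fin d → ℝ) → Fin d → ℝ) (x : ℝ → Fin d → ℝ) (b : ℝ) : Prop :=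
  ∀ t ∈ Set.Ico 0 b, HasDerivWithinAt x (f (x t)) (Set.Ici 0) t

/-- `x` solves `x' = f(x)` on `[0, ∞)`. -/
def IsGlobalSolution (f : (Fin d → ℝ) → Fin d → ℝ) (x : ℝ → Fin d → ℝ) : Prop :=
  ∀ t ∈ Set.Ici (0 : ℝ), HasDerivWithinAt x (f (x t)) (Set.Ici 0) t

/-- Permanence of `x' = f(x)` on `P`: every solution starting in `P` exists and is
positive for all `t ≥ 0`, and there is a compact subset `K` of `P` in which every such
solution stays for all sufficiently large times. -/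
def PermanentOn (f : (Fin d → ℝ) → Fin d → ℝ) (P : Set (Fin d → ℝ)) : Prop :=
  (∀ x₀ ∈ P, ∃ x, IsGlobalSolution f x ∧ x 0 = x₀) ∧
  (∀ b > 0, ∀ x, IsSolutionOn f x b → x 0 ∈ P →
    ∃ z, IsGlobalSolution f z ∧ Set.EqOn x z (Set.Ico 0 b)) ∧
  (∀ x, IsGlobalSolution f x → x 0 ∈ P → ∀ t ≥ 0, ∀ i, 0 < x t i) ∧
  ∃ K ⊆ P, IsCompact K ∧
    ∀ x, IsGlobalSolution f x → x 0 ∈ P → ∃ t₀, ∀ t ≥ t₀, x t ∈ K

end Vale.Agent.P072
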