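import Vale.Agent.P072.Defs

/-! # Time-dependent rates: definitions -/

namespace Vale.Agent.P072

open MeasureTheory

variable {d : ℕ}

/-- Admissible time-dependent rates: for every reaction, a (Lebesgue) measurable function
on `[0, ∞)` with values in `[ε, ε⁻¹]` (at almost all times). -/
def Admissible (G : Network d) (ε : ℝ) (k : (Fin d → ℕ) × (Fin d → ℕ) → ℝ → ℝ) : Prop :=
  ∀ r ∈ G.reactions, AEMeasurable (k r) (volume.restrict (Set.Ici 0)) ∧
    ∀ᵐ t : ℝ, 0 ≤ t → ε ≤ k r t ∧ k r t ≤ ε⁻¹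

/-- `x` is a Caratheodory solution of `x' = g(t, x)` on `[0, b)`: it is continuous and
`x(t) = x(0) + ∫₀ᵗ g(s, x(s)) ds`. -/
def IsCarSolutionOn (g : ℝ → (Fin d → ℝ) → Fin d → ℝ) (x : ℝ → Fin d → ℝ) (b : ℝ) : Prop :=
  ContinuousOn x (Set.Ico 0 b) ∧
    ∀ t ∈ Set.Ico 0 b, x t = x 0 + ∫ s in (0 : ℝ)..t, g s (x s)

/-- `x` is a Caratheodory solution of `x' = g(t, x)` on `[0, ∞)`. -/
def IsGlobalCarSolution (g : ℝ → (Fin d → ℝ) → Fin d → ℝ) (x : ℝ → Fin d → ℝ) : Prop :=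
  ContinuousOn x (Set.Ici 0) ∧
    ∀ t ∈ Set.Ici (0 : ℝ), x t = x 0 + ∫ s in (0 : ℝ)..t, g s (x s)

/-- The mass-action vector field with time-dependent rates `k`. -/
noncomputable def Network.tvField (G : Network d)
    (k : (Fin d → ℕ) × (Fin d → ℕ) → ℝ → ℝ) (t : ℝ) (x : Fin d → ℝ) : Fin d → ℝ :=
  G.field (fun r => k r t) x

/-- Permanence on `P`, uniformly over all admissible time-dependent rates: every solution
starting in `P` exists and is positive for all `t ≥ 0`, and one compact subset `K` of `P`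
(depending only on the network, on `ε` and on `P`) contains every such solution for all
sufficiently large times. -/
def Network.UniformlyPermanentOn (G : Network d) (ε : ℝ) (P : Set (Fin d → ℝ)) : Prop :=
  (∀ k, Admissible G ε k → ∀ x₀ ∈ P, ∃ x, IsGlobalCarSolution (G.tvField k) x ∧ x 0 = x₀) ∧
  (∀ k, Admissible G ε k → ∀ b > 0, ∀ x, IsCarSolutionOn (G.tvField k) x b → x 0 ∈ P →
    ∃ z, IsGlobalCarSolution (G.tvField k) z ∧ Set.EqOn x z (Set.Ico 0 b)) ∧
  (∀ k, Admissible G ε k → ∀ x, IsGlobalCarSolution (G.tvField k) x → x 0 ∈ P →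
    ∀ t ≥ 0, ∀ i, 0 < x t i) ∧
  ∃ K ⊆ P, IsCompact K ∧
    ∀ k, Admissible G ε k → ∀ x, IsGlobalCarSolution (G.tvField k) x → x 0 ∈ P →
      ∃ t₀, ∀ t ≥ t₀, x t ∈ K

end Vale.Agent.P072
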