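import Mathlib.Algebra.Module.StablyFree.Basic
import Mathlib.Algebra.Order.Rearrangement
import Mathlib.Algebra.Order.Ring.Star
import Mathlib.Algebra.Order.Star.Real
import Mathlib.Analysis.Calculus.BumpFunction.FiniteDimension
import Mathlib.Analysis.Complex.ExponentialBounds
import Mathlib.Analysis.ODE.ExistUnique
import Mathlib.Data.Fin.Tuple.Sort
import Mathlib.Data.Int.Star
import Mathlib.RingTheory.Etale.Weakly
import Mathlib.RingTheory.Flat.TorsionFree
import Mathlib.RingTheory.SimpleRing.Principal
import Mathlib.RingTheory.TotallySplit
import Mathlib.Tactic

/-! The part of Mathlib that the development of this folder uses. -/
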